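import Vale.Agent.P330.Q.Path

/-!
# Register systems and block systems

A *register system* `Sys` consists of sites, wires, a type `X` of contents, and for every content
`nb` base registers and `L` further registers; the row of register `j` of the content `x` at the
site `h` is `row x j h`. Every further register is a function (`link`) of the older registers at the
neighbours.

A *block system* `BSys` consists of configurations, their words (one block per site), a site test
`chi`, a decoder `eta` and the site functions `phi` of the dynamics; `BFacts` lists what the outer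
network needs.
-/

namespace Vale.Agent.P330.H797

open Finset Q

/-- The fraction of the sites with the property `P`. -/
noncomputable def fr {Om : Type} [Fintype Om] (P : Om → Prop) : ℝ :=
  open Classical in ((univ.filter P).card : ℝ) / Fintype.card Om

/-! ### Block systems -/

/-- A block system: configurations `Cf`, sites `Om`, blocks `Bl`, `K` wires. -/
structure BSys (Cf Om Bl : Type) (K : ℕ) where
  wr : Fin K → Equiv.Perm Om
  own : Fin K
  word : Cf → Om → Bl
  Valid : Cf → Prop
  step : Bool → Cf → Cf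
  w0 : Cf
  /-- the test at a site -/
  chi : Om → (Fin K → Bl) → Prop
  /-- one round of decoding -/
  eta : Om → (Fin K → Option Bl) → Bl
  /-- the dynamics -/
  phi : Bool → Om → (Fin K → Bl) → Bl

/-- What the outer network needs to know about a block system. -/
structure BFacts {Cf Om Bl : Type} {K : ℕ} [Fintype Om] (B : BSys Cf Om Bl K)
    (κ : ℝ → ℝ) (θ ρ₁ c₀ : ℝ) : Prop where
  wr_own : ∀ h, B.wr B.own h = h
  /-- completeness of the test -/
  complete : ∀ w, B.Valid w → ∀ h, B.chi h (fun i => B.word w (B.wr i h))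
  /-- soundness of the test; missing blocks are allowed and count as violations -/
  sound : ∀ ρ : ℝ, 0 < ρ → ∀ X : Om → Option Bl,
    fr (fun h => ¬ ∃ v : Fin K → Bl, (∀ i, X (B.wr i h) = some (v i)) ∧ B.chi h v) ≤ κ ρ →
    ∃ w, B.Valid w ∧ fr (fun h => X h ≠ some (B.word w h)) ≤ ρ
  /-- distance -/
  dist : ∀ w w', w ≠ w' → θ ≤ fr (fun h => B.word w h ≠ B.word w' h)
  /-- contraction -/
  contract : ∀ A : Finset Om, (A.card : ℝ) ≤ ρ₁ * Fintype.card Om →
    ∃ A' : Finset Om, (A'.card : ℝ) ≤ c₀ * A.card ∧ ∀ h ∉ A', ∀ (w : Cf) (v : Fin K → Option Bl),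
      (∀ i, B.wr i h ∉ A → v i = some (B.word w (B.wr i h))) → B.eta h v = B.word w h
  /-- the dynamics is local on valid configurations -/
  phi_word : ∀ z w, B.Valid w → ∀ h,
    B.phi z h (fun i => B.word w (B.wr i h)) = B.word (B.step z w) h
  valid0 : B.Valid B.w0
  inv : ∀ z w, B.Valid w → B.Valid (B.step z w) → B.step (!z) (B.step z w) = w
  start : ¬ B.Valid (B.step true B.w0)

/-! ### Register systems -/

/-- A register system. -/
structure Sys (Om S X : Type) (K : ℕ) where
  /-- the wires -/
  wr : Fin K → Equiv.Perm Om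
  own : Fin K
  /-- number of base registers -/
  nb : ℕ
  /-- number of further registers -/
  L : ℕ
  /-- a default row -/
  s0 : S
  /-- the row of register `j` of the content `x` at the site `h` -/
  row : X → ℕ → Om → S
  /-- register `nb + j` from the older registers at the neighbours -/
  link : ℕ → Om → (Fin K → List S) → S
  /-- the local check of register `j` -/
  chk : ℕ → Om → (Fin K → S) → Prop
  /-- the test of the base registers -/
  bchk : Om → (Fin K → List S) → Prop
  /-- one round of decoding of register `j` -/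
  dec : ℕ → Om → (Fin K → Option S) → S
  /-- validity, site by site -/
  vchk : Om → (Fin K → List S) → Prop
  /-- the base rows of the successor (`false`) and of the predecessor (`true`) -/
  nxt : Bool → Om → (Fin K → List S) → List S
  D : Dyn X

namespace Sys

variable {Om S X : Type} {K : ℕ} (Y : Sys Om S X K)

/-- The rows of the registers `0, …, n-1` of the content `x` at the site `h`. -/
def stk (x : X) (n : ℕ) (h : Om) : List S := (List.range n).map fun j => Y.row x j h

end Sys

/-- The constants of a register system. -/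
structure Cst where
  /-- edge expansion -/
  cE : ℝ
  /-- closure constant -/
  C : ℝ
  /-- radius of nearness of the exactness theorem -/
  ρ₀ : ℝ
  /-- the LTC -/
  κL : ℝ → ℝ
  /-- validity -/
  κV : ℝ
  /-- distance of contents -/
  θ : ℝ
  /-- radius of the contraction -/
  ρ₁ : ℝ
  /-- factor of the contraction -/
  c₀ : ℝ
  cE_pos : 0 < cE
  C_pos : 0 < C
  ρ₀_pos : 0 < ρ₀
  κL_pos : ∀ ρ, 0 < ρ → 0 < κL ρ
  κV_pos : 0 < κV
  θ_pos : 0 < θ
  θ_le : θ ≤ 1

/-- The facts about a register system (interface R1-R6). -/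
structure RFacts {Om S X : Type} {K : ℕ} [Fintype Om] (Y : Sys Om S X K) (c : Cst) : Prop where
  wr_own : ∀ h, Y.wr Y.own h = h
  L_pos : 0 < Y.L
  /-- edge expansion of the graph of the wires -/
  expand : ∀ A : Finset Om, 2 * A.card ≤ Fintype.card Om →
    ∃ A' : Finset Om, (∀ h ∈ A', h ∈ A ∧ ∃ i, Y.wr i h ∉ A) ∧ c.cE * A.card ≤ A'.card
  /-- R1: links -/
  link_row : ∀ x j h, j < Y.L →
    Y.row x (Y.nb + j) h = Y.link j h (fun i => Y.stk x (Y.nb + j) (Y.wr i h))
  /-- R2: local checks, completeness and exactness outside one closure set for all registers -/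
  chk_row : ∀ x j h, j < Y.nb + Y.L → Y.chk j h (fun i => Y.row x j (Y.wr i h))
  exact : ∀ B : Finset Om, ∃ cl : Finset Om, B ⊆ cl ∧ (cl.card : ℝ) ≤ c.C * B.card ∧
    ∀ j < Y.nb + Y.L, ∀ (x : X) (u : Om → S), (∀ h ∉ B, Y.chk j h (fun i => u (Y.wr i h))) →
      fr (fun h => u h ≠ Y.row x j h) ≤ c.ρ₀ → ∀ h ∉ cl, u h = Y.row x j h
  /-- R3: the base registers are locally testable -/
  bchk_row : ∀ x h, Y.bchk h (fun i => Y.stk x Y.nb (Y.wr i h))
  ltc : ∀ ρ : ℝ, 0 < ρ → ∀ u : Om → List S,
    fr (fun h => ¬ Y.bchk h (fun i => u (Y.wr i h))) ≤ c.κL ρ →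
    ∃ x, fr (fun h => u h ≠ Y.stk x Y.nb h) ≤ ρ
  dist : ∀ x x', x ≠ x' → c.θ ≤ fr (fun h => Y.stk x Y.nb h ≠ Y.stk x' Y.nb h)
  /-- R4: contraction, one set for all registers -/
  contract : ∀ A : Finset Om, (A.card : ℝ) ≤ c.ρ₁ * Fintype.card Om →
    ∃ A' : Finset Om, (A'.card : ℝ) ≤ c.c₀ * A.card ∧ ∀ h ∉ A',
      (∃ G : Finset (Fin K), K < 2 * G.card ∧ ∀ i ∈ G, Y.wr i h ∉ A) ∧
      ∀ j < Y.nb + Y.L, ∀ (x : X) (v : Fin K → Option S),
        (∀ i, Y.wr i h ∉ A → v i = some (Y.row x j (Y.wr i h))) → Y.dec j h v = Y.row x j h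
  /-- R5: validity -/
  vchk_valid : ∀ x, Y.D.Valid x → ∀ h, Y.vchk h (fun i => Y.stk x (Y.nb + Y.L) (Y.wr i h))
  valid_vchk : ∀ x, fr (fun h => ¬ Y.vchk h (fun i => Y.stk x (Y.nb + Y.L) (Y.wr i h))) ≤ c.κV →
    Y.D.Valid x
  /-- R6: the dynamics -/
  nxt_row : ∀ z x, Y.D.Valid x → ∀ h,
    Y.nxt z h (fun i => Y.stk x (Y.nb + Y.L) (Y.wr i h)) = Y.stk (Y.D.step z x) Y.nb h

/-! ### The block system of a register system -/

/-- A block: the bit `rel` and the stacks of rows of the two sides. -/
@[ext] structure Blk (S : Type) where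
  rel : Bool
  st : Bool → List S

/-- The relation and the lengths of the stacks. -/
def Blk.shape {S : Type} (b : Blk S) : Bool × ℕ × ℕ :=
  (b.rel, (b.st false).length, (b.st true).length)

/-- The length of side `σ` in a shape. -/
def shLen (s : Bool × ℕ × ℕ) (σ : Bool) : ℕ := if σ then s.2.2 else s.2.1

/-- The value taken by more than half of the entries; `d` if there is no such value. -/
def maj {T : Type} [DecidableEq T] {K : ℕ} (v : Fin K → Option T) (d : T) : T :=
  (((List.finRange K).filterMap v).find? fun t =>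
    decide (K < 2 * ((List.finRange K).countP fun i => decide (v i = some t)))).getD d

namespace Sys

variable {Om S X : Type} {K : ℕ} (Y : Sys Om S X K)

/-- Configurations of the block system: extended states with bounded heights. -/
def Cf : Type := {s : St X // ∀ σ, s.ht σ ≤ Y.L}

/-- The word of an extended state. -/
def word (s : St X) (h : Om) : Blk S :=
  ⟨s.rel, fun σ => Y.stk (s.base σ) (Y.nb + s.ht σ) h⟩

/-- The test at a site. -/
def chi (h : Om) (v : Fin K → Blk S) : Prop :=
  (∀ i, (v i).shape = (v Y.own).shape) ∧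
  (∀ σ, Y.nb ≤ ((v Y.own).st σ).length ∧ ((v Y.own).st σ).length ≤ Y.nb + Y.L) ∧
  (∃ σ, ((v Y.own).st σ).length = Y.nb + Y.L) ∧
  (∀ σ j, j < ((v Y.own).st σ).length → Y.chk j h (fun i => ((v i).st σ).getD j Y.s0)) ∧
  (∀ σ j, Y.nb + j < ((v Y.own).st σ).length →
    ((v Y.own).st σ).getD (Y.nb + j) Y.s0 = Y.link j h (fun i => ((v i).st σ).take (Y.nb + j))) ∧
  (∀ σ, ((v Y.own).st σ).length = Y.nb + Y.L →
    Y.bchk h (fun i => ((v i).st σ).take Y.nb) ∧ Y.vchk h (fun i => (v i).st σ) ∧
    ((v Y.own).st (!σ)).take Y.nb = if (v Y.own).rel then Y.nxt σ h (fun i => (v i).st σ)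
      else ((v Y.own).st σ).take Y.nb)

/-- One round of decoding. -/
def eta (h : Om) (v : Fin K → Option (Blk S)) : Blk S :=
  let s := maj (fun i => (v i).map Blk.shape) (false, 0, 0)
  ⟨s.1, fun σ => (List.range (shLen s σ)).map fun j =>
    Y.dec j h fun i => (v i).bind fun b => (b.st σ)[j]?⟩

/-- The dynamics. -/
def phi (z : Bool) (h : Om) (v : Fin K → Blk S) : Blk S :=
  let b := v Y.own
  let g := xor z b.rel
  if (b.st g).length ≠ Y.nb + Y.L then
    ⟨b.rel, Function.update b.st g
      (b.st g ++ [Y.link ((b.st g).length - Y.nb) h (fun i => (v i).st g)])⟩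
  else if (b.st (!g)).length ≠ Y.nb then
    ⟨b.rel, Function.update b.st (!g) (b.st (!g)).dropLast⟩
  else
    ⟨!b.rel, Function.update b.st (!g)
      (if !b.rel then Y.nxt g h (fun i => (v i).st g) else (b.st g).take Y.nb)⟩

/-- The step of the block system. -/
def stepC (z : Bool) (s : Y.Cf) : Y.Cf :=
  ⟨Y.D.stepE Y.L z s.1, by
    obtain ⟨⟨r, b, t⟩, hs⟩ := s
    intro σ
    simp only at hs ⊢
    unfold Dyn.stepE
    simp only
    split_ifs with h1 h2
    · by_cases hσ : σ = xor z r
      · subst hσ
        simp only [Function.update_self]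
        exact lt_of_le_of_ne (hs _) h1
      · simp only [Function.update_of_ne hσ]; exact hs σ
    · by_cases hσ : σ = !(xor z r)
      · subst hσ
        simp only [Function.update_self]
        have := hs (!(xor z r))
        omega
      · simp only [Function.update_of_ne hσ]; exact hs σ
    · exact hs σ⟩

/-- The start. -/
def start0 : Y.Cf := ⟨Y.D.st0 Y.L, fun σ => by cases σ <;> simp [Dyn.st0]⟩

/-- The block system of a register system. -/
def bsys : BSys Y.Cf Om (Blk S) K where
  wr := Y.wr
  own := Y.own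
  word s h := Y.word s.1 h
  Valid s := Y.D.VE Y.L s.1
  step := Y.stepC
  w0 := Y.start0
  chi := Y.chi
  eta := Y.eta
  phi := Y.phi

end Sys

end Vale.Agent.P330.H797
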