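import Vale.Agent.P330.H797.Dyn

/-!
# The block system of a register system satisfies `BFacts` (end)
-/

namespace Vale.Agent.P330.H797

open Finset Q

/-! ### Majority -/

theorem maj_eq {T : Type} [DecidableEq T] {K : ℕ} {v : Fin K → Option T} {d t : T}
    (h : ∃ G : Finset (Fin K), K < 2 * G.card ∧ ∀ i ∈ G, v i = some t) : maj v d = t := by
  obtain ⟨G, hG, hv⟩ := h
  have hcount : ∀ u : T, (List.finRange K).countP (fun i => decide (v i = some u)) =
      (univ.filter fun i => v i = some u).card := by
    intro u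
    rw [List.countP_eq_length_filter]
    have h1 : (univ.filter fun i : Fin K => v i = some u) =
        ((List.finRange K).filter fun i => decide (v i = some u)).toFinset := by
      ext i; simp
    rw [h1, List.toFinset_card_of_nodup ((List.nodup_finRange K).filter _)]
  have hGle : G.card ≤ (univ.filter fun i => v i = some t).card :=
    card_le_card fun i hi => by simpa using hv i hi
  have huniq : ∀ u : T, K < 2 * (univ.filter fun i => v i = some u).card → u = t := by
    intro u hu
    by_contra hne
    have hd : Disjoint (univ.filter fun i => v i = some u) (univ.filter fun i => v i = some t) := by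
      rw [disjoint_filter]
      intro i _ h1 h2
      rw [h1] at h2
      exact hne (by simpa using h2)
    have := card_union_of_disjoint hd
    have h2 : ((univ.filter fun i => v i = some u) ∪ (univ.filter fun i => v i = some t)).card ≤ K :=
      (card_le_univ _).trans (by simp)
    omega
  unfold maj
  have hex : ∃ u ∈ (List.finRange K).filterMap v,
      decide (K < 2 * ((List.finRange K).countP fun i => decide (v i = some u))) = true := by
    refine ⟨t, ?_, ?_⟩
    · rw [List.mem_filterMap]
      obtain ⟨i, hi⟩ : G.Nonempty := by rw [← card_pos]; omega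
      exact ⟨i, List.mem_finRange i, hv i hi⟩
    · rw [decide_eq_true_eq, hcount]; omega
  obtain ⟨u, hu⟩ : ∃ u, ((List.finRange K).filterMap v).find? (fun t =>
      decide (K < 2 * ((List.finRange K).countP fun i => decide (v i = some t)))) = some u := by
    rw [← Option.isSome_iff_exists, List.find?_isSome]
    exact hex
  rw [hu, Option.getD_some]
  have h1 := List.find?_some hu
  rw [decide_eq_true_eq, hcount] at h1
  exact huniq u h1

namespace Sys

variable {Om S X : Type} {K : ℕ} {Y : Sys Om S X K} {c : Cst}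

@[simp] theorem shLen_shape (b : Blk S) (σ : Bool) : shLen b.shape σ = (b.st σ).length := by
  cases σ <;> simp [shLen, Blk.shape]

@[simp] theorem word_rel (s : St X) (h : Om) : (Y.word s h).rel = s.rel := rfl

@[simp] theorem word_st (s : St X) (h : Om) (σ : Bool) :
    (Y.word s h).st σ = Y.stk (s.base σ) (Y.nb + s.ht σ) h := rfl

theorem word_shape (s : St X) (h h' : Om) : (Y.word s h).shape = (Y.word s h').shape := by
  simp [Blk.shape]

/-- Decoding. -/
theorem eta_word (s : St X) (hs : ∀ σ, s.ht σ ≤ Y.L) {A : Finset Om} {h : Om}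
    (hG : ∃ G : Finset (Fin K), K < 2 * G.card ∧ ∀ i ∈ G, Y.wr i h ∉ A)
    (hdec : ∀ j < Y.nb + Y.L, ∀ (x : X) (v : Fin K → Option S),
        (∀ i, Y.wr i h ∉ A → v i = some (Y.row x j (Y.wr i h))) → Y.dec j h v = Y.row x j h)
    (v : Fin K → Option (Blk S)) (hv : ∀ i, Y.wr i h ∉ A → v i = some (Y.word s (Y.wr i h))) :
    Y.eta h v = Y.word s h := by
  have hmaj : maj (fun i => (v i).map Blk.shape) (false, 0, 0) = (Y.word s h).shape := by
    refine maj_eq ?_
    obtain ⟨G, hG1, hG2⟩ := hG
    exact ⟨G, hG1, fun i hi => by rw [hv i (hG2 i hi)]; simp [word_shape s _ h]⟩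
  unfold eta
  simp only [hmaj]
  refine Blk.ext rfl ?_
  funext σ
  simp only [shLen_shape, word_st, stk_length]
  unfold stk
  refine List.map_congr_left fun j hj => ?_
  rw [List.mem_range] at hj
  have := hs σ
  refine hdec j (by omega) (s.base σ) _ fun i hi => ?_
  rw [hv i hi]
  simp only [Option.bind_some, word_st]
  exact stk_getElem? _ hj _

/-- Distance of the words. -/
theorem dist_word [Fintype Om] [Nonempty Om] (hY : RFacts Y c) (w w' : Y.Cf) (hne : w ≠ w') :
    c.θ ≤ fr (fun h => Y.word w.1 h ≠ Y.word w'.1 h) := by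
  classical
  have hone : (∀ h, Y.word w.1 h ≠ Y.word w'.1 h) →
      c.θ ≤ fr (fun h => Y.word w.1 h ≠ Y.word w'.1 h) := by
    intro h
    rw [fr_eq_one h]; exact c.θ_le
  by_cases h1 : w.1.rel = w'.1.rel
  · by_cases h2 : w.1.ht = w'.1.ht
    · have h3 : w.1.base ≠ w'.1.base := by
        intro h3
        exact hne (Subtype.ext (St.ext h1 h3 h2))
      obtain ⟨σ, hσ⟩ : ∃ σ, w.1.base σ ≠ w'.1.base σ := by
        by_contra hc
        push Not at hc
        exact h3 (funext hc)
      refine (hY.dist _ _ hσ).trans (fr_mono fun h hh he => hh ?_)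
      have h4 := congrArg (fun b : Blk S => (b.st σ).take Y.nb) he
      simp only [word_st] at h4
      rwa [stk_take _ (by omega), stk_take _ (by omega)] at h4
    · refine hone fun h he => h2 ?_
      funext σ
      have h4 := congrArg (fun b : Blk S => (b.st σ).length) he
      simp only [word_st, stk_length] at h4
      omega
  · exact hone fun h he => h1 (congrArg Blk.rel he)

/-- The dynamics on words. -/
theorem phi_word' [Fintype Om] (hY : RFacts Y c) (z : Bool) (s : St X)
    (hs : Y.D.VE Y.L s) (h : Om) :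
    Y.phi z h (fun i => Y.word s (Y.wr i h)) = Y.word (Y.D.stepE Y.L z s) h := by
  obtain ⟨r, b, t⟩ := s
  obtain ⟨hle, hex, hfull⟩ := hs
  simp only at hle hex hfull
  unfold phi Dyn.stepE
  simp only [word_rel, word_st, stk_length, hY.wr_own]
  generalize hg : xor z r = g
  have hgg' : (!g) ≠ g := by cases g <;> decide
  have hcase : ∀ σ, σ = g ∨ σ = !g := by intro σ; cases σ <;> cases g <;> simp
  by_cases h1 : t g ≠ Y.L
  · rw [if_pos (show Y.nb + t g ≠ Y.nb + Y.L by omega), if_pos h1]
    refine Blk.ext rfl ?_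
    funext σ
    rcases hcase σ with rfl | rfl
    · simp only [Function.update_self, word_st]
      have h3 : Y.nb + (t σ + 1) = (Y.nb + t σ) + 1 := by omega
      have h4 : Y.nb + t σ - Y.nb = t σ := by omega
      rw [h3, h4]
      conv_rhs => rw [stk, List.range_succ, List.map_append, List.map_singleton]
      rw [hY.link_row _ _ _ (lt_of_le_of_ne (hle σ) h1)]
      rfl
    · simp only [Function.update_of_ne hgg', word_st]
  push Not at h1
  rw [if_neg (show ¬ (Y.nb + t g ≠ Y.nb + Y.L) by omega), if_neg (show ¬ (t g ≠ Y.L) by omega)]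
  by_cases h2 : t (!g) ≠ 0
  · rw [if_pos (show Y.nb + t (!g) ≠ Y.nb by omega), if_pos h2]
    refine Blk.ext rfl ?_
    funext σ
    rcases hcase σ with rfl | rfl
    · simp only [Function.update_of_ne hgg'.symm, word_st]
    · simp only [Function.update_self, word_st]
      obtain ⟨k, hk⟩ : ∃ k, t (!g) = k + 1 := ⟨t (!g) - 1, by omega⟩
      have h3 : Y.nb + t (!g) = (Y.nb + k) + 1 := by omega
      have h4 : t (!g) - 1 = k := by omega
      rw [h3, h4]
      conv_lhs => rw [stk, List.range_succ, List.map_append, List.map_singleton]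
      rw [List.dropLast_concat]
      rfl
  · push Not at h2
    rw [if_neg (show ¬ (Y.nb + t (!g) ≠ Y.nb) by omega), if_neg (show ¬ (t (!g) ≠ 0) by omega)]
    refine Blk.ext rfl ?_
    funext σ
    rcases hcase σ with rfl | rfl
    · simp only [Function.update_of_ne hgg'.symm, word_st]
    · simp only [Function.update_self, word_st, h2, Nat.add_zero]
      have h3 := (hfull g h1).1
      rw [stk_take _ (by omega), h1, hY.nxt_row g _ h3 h]
      unfold Dyn.other
      split_ifs <;> rfl

end Sys

/-- **The block system of a register system satisfies `BFacts`.** -/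
theorem bfacts {Om S X : Type} {K : ℕ} [Fintype Om] [Nonempty Om] {Y : Sys Om S X K} {c : Cst}
    (hY : RFacts Y c) : BFacts Y.bsys (kap c K) c.θ c.ρ₁ c.c₀ where
  wr_own := hY.wr_own
  complete := by
    rintro ⟨s, hs⟩ hv h
    obtain ⟨hle, hex, hfull⟩ := hv
    simp only at hle hex hfull
    refine ⟨fun i => Sys.word_shape s _ _, fun σ => ?_, ?_, fun σ j hj => ?_, fun σ j hj => ?_,
      fun σ hσ => ?_⟩
    · have := hle σ
      simp only [Sys.bsys, Sys.word_st, Sys.stk_length]
      omega
    · obtain ⟨σ, hσ⟩ := hex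
      exact ⟨σ, by simp only [Sys.bsys, Sys.word_st, Sys.stk_length]; omega⟩
    · have h1 := hle σ
      simp only [Sys.bsys, Sys.word_st, Sys.stk_length] at hj ⊢
      have h2 : (fun i => (Y.stk (s.base σ) (Y.nb + s.ht σ) (Y.wr i h)).getD j Y.s0) =
          fun i => Y.row (s.base σ) j (Y.wr i h) := funext fun i => Sys.stk_getD _ hj _ _
      rw [h2]
      exact hY.chk_row _ _ _ (by omega)
    · have h1 := hle σ
      simp only [Sys.bsys, Sys.word_st, Sys.stk_length, hY.wr_own] at hj ⊢
      rw [Sys.stk_getD _ hj, hY.link_row _ _ _ (by omega)]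
      congr 1
      funext i
      rw [Sys.stk_take _ (by omega)]
    · simp only [Sys.bsys, Sys.word_st, Sys.stk_length, Sys.word_rel, hY.wr_own] at hσ ⊢
      have h0 : s.ht σ = Y.L := by omega
      obtain ⟨hv, ho⟩ := hfull σ h0
      rw [h0]
      have h2 : (fun i => (Y.stk (s.base σ) (Y.nb + Y.L) (Y.wr i h)).take Y.nb) =
          fun i => Y.stk (s.base σ) Y.nb (Y.wr i h) := funext fun i => Sys.stk_take _ (by omega) _
      rw [h2]
      refine ⟨hY.bchk_row _ _, hY.vchk_valid _ hv _, ?_⟩
      rw [Sys.stk_take _ (by omega), Sys.stk_take _ (by omega), hY.nxt_row _ _ hv, ho]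
      unfold Dyn.other
      split_ifs <;> rfl
  sound ρ hρ X' hX := by
    obtain ⟨w, h1, h2⟩ := Sys.sound hY X' hX
    exact ⟨w, h1, h2⟩
  dist := Sys.dist_word hY
  contract A hA := by
    obtain ⟨A', h1, h2⟩ := hY.contract A hA
    refine ⟨A', h1, fun h hh w v hv => ?_⟩
    obtain ⟨hG, hdec⟩ := h2 h hh
    exact Sys.eta_word w.1 w.2 hG hdec v hv
  phi_word z w hw h := Sys.phi_word' hY z w.1 hw h
  valid0 := Dyn.ve_st0 hY.L_pos
  inv z w hw _ := Subtype.ext (Dyn.inv_stepE hw hY.L_pos)
  start := Dyn.start_st0 hY.L_pos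

end Vale.Agent.P330.H797
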