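import Vale.Agent.P330.H797.DynA

/-!
# The block system of a register system satisfies `BFacts`
-/

namespace Vale.Agent.P330.H797

open Finset Q

/-- The level of violations for the conclusion with `ρ`. -/
noncomputable def kap (c : Cst) (K : ℕ) (ρ : ℝ) : ℝ :=
  min (min (c.cE / 2) (1 / (2 * (1 + 1 / c.cE))))
    (min (min (c.κL c.ρ₀) (c.ρ₀ / (K * c.C + 1)))
      (min (c.κV / (K * c.C + 1)) (min (c.θ / (2 * (K * c.C + 1))) (ρ / (K * c.C + 1)))) /
        ((K + 1) * (1 + 1 / c.cE)))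

theorem kap_pos (c : Cst) (K : ℕ) {ρ : ℝ} (hρ : 0 < ρ) : 0 < kap c K ρ := by
  have h1 := c.cE_pos
  have h2 := c.C_pos
  have h3 := c.ρ₀_pos
  have h4 := c.κL_pos _ h3
  have h5 := c.κV_pos
  have h6 := c.θ_pos
  have h7 : (0 : ℝ) < K * c.C + 1 := by positivity
  unfold kap
  refine lt_min (lt_min (by positivity) (by positivity)) (div_pos ?_ (by positivity))
  refine lt_min (lt_min h4 (by positivity)) (lt_min (by positivity)
    (lt_min (by positivity) (by positivity)))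

namespace Sys

variable {Om S X : Type} {K : ℕ} {Y : Sys Om S X K} {c : Cst} [Fintype Om]

/-- The conditions on the set `B` of bad sites and its closure. -/
structure Small (c : Cst) (K : ℕ) (n B cl : ℝ) (ρ : ℝ) : Prop where
  L : B ≤ c.κL c.ρ₀ * n
  lk : B + K * cl ≤ c.ρ₀ * n
  V : K * cl ≤ c.κV * n
  θ : K * cl < c.θ * n
  ρ : cl ≤ ρ * n

theorem small_of_kap {ρ κ n v B cl : ℝ} (hn : 0 < n) (hK : (1 : ℝ) ≤ K)
    (hκ : κ ≤ kap c K ρ) (hv : v ≤ κ * n) (hv0 : 0 ≤ v)
    (hB : B ≤ K * (v + v / c.cE)) (hcl : cl ≤ c.C * B) (hB0 : 0 ≤ B) :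
    Small c K n B cl ρ := by
  have h1 := c.cE_pos
  have h2 := c.C_pos
  have h3 := c.ρ₀_pos
  have h5 := c.κV_pos
  have h6 := c.θ_pos
  have h7 : (0 : ℝ) < K * c.C + 1 := by positivity
  have h8 : (0 : ℝ) < (K + 1) * (1 + 1 / c.cE) := by positivity
  have hκ' : κ * ((K + 1) * (1 + 1 / c.cE)) ≤ min (min (c.κL c.ρ₀) (c.ρ₀ / (K * c.C + 1)))
      (min (c.κV / (K * c.C + 1)) (min (c.θ / (2 * (K * c.C + 1))) (ρ / (K * c.C + 1)))) := by
    rw [← le_div_iff₀ h8]
    exact hκ.trans (min_le_right _ _)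
  set t := κ * ((K + 1) * (1 + 1 / c.cE)) with ht
  have ht1 : t ≤ c.κL c.ρ₀ := hκ'.trans ((min_le_left _ _).trans (min_le_left _ _))
  have ht2 : t ≤ c.ρ₀ / (K * c.C + 1) := hκ'.trans ((min_le_left _ _).trans (min_le_right _ _))
  have ht3 : t ≤ c.κV / (K * c.C + 1) := hκ'.trans ((min_le_right _ _).trans (min_le_left _ _))
  have ht4 : t ≤ c.θ / (2 * (K * c.C + 1)) :=
    hκ'.trans ((min_le_right _ _).trans ((min_le_right _ _).trans (min_le_left _ _)))
  have ht5 : t ≤ ρ / (K * c.C + 1) :=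
    hκ'.trans ((min_le_right _ _).trans ((min_le_right _ _).trans (min_le_right _ _)))
  rw [le_div_iff₀ h7] at ht2 ht3 ht5
  rw [le_div_iff₀ (by positivity)] at ht4
  have hBt : B ≤ t * n := by
    refine hB.trans ?_
    have e : K * (v + v / c.cE) = (K * (1 + 1 / c.cE)) * v := by ring
    rw [e, ht]
    have h9 : (K * (1 + 1 / c.cE)) * v ≤ ((K + 1) * (1 + 1 / c.cE)) * v := by
      gcongr; linarith
    have h10 : ((K + 1) * (1 + 1 / c.cE)) * v ≤ ((K + 1) * (1 + 1 / c.cE)) * (κ * n) := by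
      gcongr
    nlinarith
  have hclt : cl ≤ c.C * (t * n) := hcl.trans (by gcongr)
  have hKcl : K * cl + B ≤ t * (K * c.C + 1) * n := by
    have : K * cl ≤ K * (c.C * (t * n)) := by gcongr
    nlinarith
  have htn : 0 ≤ t * n := hB0.trans hBt
  have hKC : cl ≤ t * (K * c.C + 1) * n := by
    have h9 : c.C * (t * n) ≤ K * c.C * (t * n) := by
      have : 0 ≤ (K - 1) * (c.C * (t * n)) := mul_nonneg (by linarith) (by positivity)
      nlinarith
    nlinarith
  refine ⟨hBt.trans (by gcongr), ?_, ?_, ?_, ?_⟩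
  · linarith [mul_le_mul_of_nonneg_right ht2 hn.le]
  · linarith [mul_le_mul_of_nonneg_right ht3 hn.le]
  · have h9 : 2 * (t * (K * c.C + 1) * n) ≤ c.θ * n := by
      have := mul_le_mul_of_nonneg_right ht4 hn.le
      nlinarith
    have h10 : 0 < c.θ * n := by positivity
    linarith
  · exact hKC.trans (mul_le_mul_of_nonneg_right ht5 hn.le)

/-- The blocks `bk` pass all tests outside `B`, have the shape `sh` there, and `cl` is a closure
of `B`. -/
structure Ctx (Y : Sys Om S X K) (c : Cst) (bk : Om → Blk S) (B cl : Finset Om)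
    (sh : Bool × ℕ × ℕ) (ρ : ℝ) : Prop where
  hBcl : B ⊆ cl
  hex : ∀ j < Y.nb + Y.L, ∀ (x : X) (u : Om → S),
      (∀ h ∉ B, Y.chk j h (fun i => u (Y.wr i h))) →
      fr (fun h => u h ≠ Y.row x j h) ≤ c.ρ₀ → ∀ h ∉ cl, u h = Y.row x j h
  sm : Small c K (Fintype.card Om) B.card cl.card ρ
  shape : ∀ h ∉ B, (bk h).shape = sh
  chi : ∀ h ∉ B, Y.chi h (fun i => bk (Y.wr i h))
  bd : ∀ σ, Y.nb ≤ shLen sh σ ∧ shLen sh σ ≤ Y.nb + Y.L

namespace Ctx

variable {bk : Om → Blk S} {B cl : Finset Om} {sh : Bool × ℕ × ℕ} {ρ : ℝ}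

theorem len (C : Ctx Y c bk B cl sh ρ) : ∀ h ∉ B, ∀ σ, ((bk h).st σ).length = shLen sh σ := by
  intro h hh σ
  rw [← C.shape h hh]
  cases σ <;> simp [shLen, Blk.shape]

theorem rel (C : Ctx Y c bk B cl sh ρ) : ∀ h ∉ B, (bk h).rel = sh.1 := by
  intro h hh; rw [← C.shape h hh]; rfl

theorem nbh (C : Ctx Y c bk B cl sh ρ) (hY : RFacts Y c) :
    ∀ h ∉ Y.nbh cl, h ∉ B ∧ ∀ i, Y.wr i h ∉ cl := by
  intro h hh
  rw [mem_nbh] at hh
  push Not at hh
  exact ⟨fun hb => hh Y.own (by rw [hY.wr_own]; exact C.hBcl hb), hh⟩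

/-- Exactness for a side with the right base. -/
theorem side [Nonempty Om] (C : Ctx Y c bk B cl sh ρ) (hY : RFacts Y c) (τ : Bool) (x : X)
    (hx : fr (fun h => ((bk h).st τ).take Y.nb ≠ Y.stk x Y.nb h) ≤ c.ρ₀) :
    ∀ h ∉ cl, (bk h).st τ = Y.stk x (shLen sh τ) h := by
  refine exact_stk C.hBcl C.hex hY.link_row (C.bd τ).2 (fun h hh => C.len h hh τ)
    (fun h hh j hj => ?_) (fun h hh j hj => ?_) hx C.sm.lk
  · have h1 := (C.chi h hh).2.2.2.1 τ j
    simp only [hY.wr_own] at h1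
    exact h1 (by rw [C.len h hh]; exact hj)
  · have h1 := (C.chi h hh).2.2.2.2.1 τ j
    simp only [hY.wr_own] at h1
    exact h1 (by rw [C.len h hh]; exact hj)

omit [Fintype Om] in
theorem hnbh : ((Y.nbh cl).card : ℝ) ≤ K * cl.card := by exact_mod_cast card_nbh cl

/-- A full side has a valid content, which determines the base of the other side. -/
theorem full [Nonempty Om] (C : Ctx Y c bk B cl sh ρ) (hY : RFacts Y c) (τ : Bool)
    (hτ : shLen sh τ = Y.nb + Y.L) (x : X)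
    (hx : ∀ h ∉ cl, (bk h).st τ = Y.stk x (Y.nb + Y.L) h) : Y.D.Valid x ∧
      ∀ h ∉ Y.nbh cl, ((bk h).st (!τ)).take Y.nb = Y.stk (Y.D.other sh.1 τ x) Y.nb h := by
  have hval : Y.D.Valid x := by
    refine hY.valid_vchk x (fr_le_of (Y.nbh cl) (fun h hh => ?_) (hnbh.trans C.sm.V))
    by_contra hc
    obtain ⟨hc1, hc2⟩ := C.nbh hY h hc
    apply hh
    have h1 := ((C.chi h hc1).2.2.2.2.2 τ (by
      simp only [hY.wr_own]; rw [C.len h hc1 τ, hτ])).2.1
    have h2 : (fun i => (bk (Y.wr i h)).st τ) = fun i => Y.stk x (Y.nb + Y.L) (Y.wr i h) :=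
      funext fun i => hx _ (hc2 i)
    rw [← h2]; exact h1
  refine ⟨hval, fun h hh => ?_⟩
  obtain ⟨hc1, hc2⟩ := C.nbh hY h hh
  have h1 := ((C.chi h hc1).2.2.2.2.2 τ (by
    simp only [hY.wr_own]; rw [C.len h hc1 τ, hτ])).2.2
  simp only [hY.wr_own] at h1
  have h2 : (fun i => (bk (Y.wr i h)).st τ) = fun i => Y.stk x (Y.nb + Y.L) (Y.wr i h) :=
    funext fun i => hx _ (hc2 i)
  have h3 : (bk h).st τ = Y.stk x (Y.nb + Y.L) h := by
    have := hx _ (hc2 Y.own)
    rwa [hY.wr_own] at this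
  rw [h1, h2, C.rel h hc1, h3, stk_take x (by omega), hY.nxt_row τ x hval h]
  unfold Dyn.other
  split_ifs <;> rfl

/-- The content of a full side `σ`. -/
theorem base [Nonempty Om] (C : Ctx Y c bk B cl sh ρ) (hY : RFacts Y c) {σ : Bool}
    (hσ : shLen sh σ = Y.nb + Y.L) :
    ∃ x, ∀ h ∉ cl, (bk h).st σ = Y.stk x (Y.nb + Y.L) h := by
  obtain ⟨x, hx⟩ := hY.ltc c.ρ₀ c.ρ₀_pos (fun h => ((bk h).st σ).take Y.nb) (by
    refine fr_le_of B (fun h hh => ?_) C.sm.L
    by_contra hc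
    refine hh ((C.chi h hc).2.2.2.2.2 σ ?_).1
    simp only [hY.wr_own]
    rw [C.len h hc σ, hσ])
  have := C.side hY σ x hx
  rw [hσ] at this
  exact ⟨x, this⟩

/-- If both sides are full then each determines the other. -/
theorem both [Nonempty Om] (C : Ctx Y c bk B cl sh ρ) (hY : RFacts Y c) {σ : Bool} {x y : X}
    (hx : ∀ h ∉ cl, (bk h).st σ = Y.stk x (Y.nb + Y.L) h)
    (ho : ∀ h ∉ Y.nbh cl, ((bk h).st σ).take Y.nb = Y.stk y Y.nb h) : x = y := by
  have hn : (0 : ℝ) < Fintype.card Om := by exact_mod_cast Fintype.card_pos (α := Om)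
  by_contra hne
  have h4 := hY.dist _ _ hne
  have h6 : fr (fun h => Y.stk x Y.nb h ≠ Y.stk y Y.nb h) ≤
      (K * cl.card) / Fintype.card Om := by
    refine fr_le_of (Y.nbh cl) (fun h hh => ?_) ?_
    · by_contra hc
      apply hh
      rw [← ho h hc]
      obtain ⟨-, hc2⟩ := C.nbh hY h hc
      have h8 := hx _ (hc2 Y.own)
      rw [hY.wr_own] at h8
      rw [h8, stk_take x (by omega)]
    · rw [div_mul_cancel₀ _ hn.ne']; exact hnbh
  have h5 : fr (fun h => Y.stk x Y.nb h ≠ Y.stk y Y.nb h) < c.θ := by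
    refine lt_of_le_of_lt h6 ?_
    rw [div_lt_iff₀ hn]
    exact C.sm.θ
  linarith

/-- The configuration. -/
theorem conf [Nonempty Om] (C : Ctx Y c bk B cl sh ρ) (hY : RFacts Y c) {σ : Bool}
    (hσ : shLen sh σ = Y.nb + Y.L) :
    ∃ w : Y.Cf, Y.D.VE Y.L w.1 ∧ ∀ h ∉ cl, bk h = Y.word w.1 h := by
  have hn : (0 : ℝ) < Fintype.card Om := by exact_mod_cast Fintype.card_pos (α := Om)
  obtain ⟨x, hxs⟩ := C.base hY hσ
  obtain ⟨hvx, hother⟩ := C.full hY σ hσ x hxs
  set y := Y.D.other sh.1 σ x with hy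
  have hys := C.side hY (!σ) y (by
    refine fr_le_of (Y.nbh cl) (fun h hh => ?_) ?_
    · by_contra hc; exact hh (hother h hc)
    · have h1 := C.sm.lk
      have h2 : (0 : ℝ) ≤ B.card := by positivity
      have h3 := hnbh (Y := Y) (cl := cl)
      linarith)
  let b : Bool → X := fun τ => if τ = σ then x else y
  have hbσ : b σ = x := by simp [b]
  have hbσ' : b (!σ) = y := by
    have : (!σ) ≠ σ := by cases σ <;> decide
    simp [b, this]
  have hcase : ∀ τ, τ = σ ∨ τ = !σ := by intro τ; cases σ <;> cases τ <;> simp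
  have hall : ∀ τ, ∀ h ∉ cl, (bk h).st τ = Y.stk (b τ) (shLen sh τ) h := by
    intro τ
    rcases hcase τ with rfl | rfl
    · rw [hbσ, hσ]; exact hxs
    · rw [hbσ']; exact hys
  have hbd := C.bd
  refine ⟨⟨⟨sh.1, b, fun τ => shLen sh τ - Y.nb⟩, fun τ => ?_⟩, ⟨fun τ => ?_, ⟨σ, ?_⟩,
    fun τ hτ => ?_⟩, ?_⟩
  · have := hbd τ; simp only; omega
  · have := hbd τ; simp only; omega
  · simp only; omega
  · simp only at hτ ⊢
    rcases hcase τ with rfl | rfl
    · rw [hbσ, hbσ']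
      exact ⟨hvx, rfl⟩
    · have h1 := (hbd (!σ)).1
      have h2 : shLen sh (!σ) = Y.nb + Y.L := by omega
      have h3 := hys
      rw [h2] at h3
      obtain ⟨hvy, ho⟩ := C.full hY (!σ) h2 y h3
      rw [Bool.not_not] at ho
      rw [hbσ', Bool.not_not, hbσ]
      exact ⟨hvy, C.both hY hxs ho⟩
  · intro h hc
    have hcB : h ∉ B := fun hb => hc (C.hBcl hb)
    unfold word
    refine Blk.ext (C.rel h hcB) ?_
    funext τ
    simp only
    rw [hall τ h hc]
    congr 1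
    have := (hbd τ).1
    omega

end Ctx

open Classical in
/-- Soundness of the test. -/
theorem sound [Nonempty Om] (hY : RFacts Y c) {ρ : ℝ} (X' : Om → Option (Blk S))
    (hX : fr (fun h => ¬ ∃ v : Fin K → Blk S, (∀ i, X' (Y.wr i h) = some (v i)) ∧ Y.chi h v) ≤
      kap c K ρ) :
    ∃ w : Y.Cf, Y.D.VE Y.L w.1 ∧ fr (fun h => X' h ≠ some (Y.word w.1 h)) ≤ ρ := by
  have hn : (0 : ℝ) < Fintype.card Om := by exact_mod_cast Fintype.card_pos (α := Om)
  have hcE := c.cE_pos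
  have hK : 1 ≤ K := Nat.one_le_iff_ne_zero.2 fun h => by subst h; exact Y.own.elim0
  -- the violated sites
  set V : Finset Om := univ.filter fun h =>
    ¬ ∃ v : Fin K → Blk S, (∀ i, X' (Y.wr i h) = some (v i)) ∧ Y.chi h v with hV
  have hVn : (V.card : ℝ) ≤ kap c K ρ * Fintype.card Om := by
    rw [hV, card_filter_eq]; gcongr
  have hk1 : kap c K ρ ≤ c.cE / 2 := (min_le_left _ _).trans (min_le_left _ _)
  have hk2 : kap c K ρ ≤ 1 / (2 * (1 + 1 / c.cE)) := (min_le_left _ _).trans (min_le_right _ _)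
  -- the blocks as total functions
  have hXv : ∀ h ∉ V, ∃ v : Fin K → Blk S, (∀ i, X' (Y.wr i h) = some (v i)) ∧ Y.chi h v := by
    intro h hh
    by_contra hc
    exact hh (by rw [hV]; simpa using hc)
  let bk : Om → Blk S := fun h => (X' h).getD ⟨false, fun _ => []⟩
  have hchi : ∀ h ∉ V, Y.chi h (fun i => bk (Y.wr i h)) := by
    intro h hh
    obtain ⟨v, hv, hc⟩ := hXv h hh
    have : (fun i => bk (Y.wr i h)) = v := by funext i; simp [bk, hv i]
    rw [this]; exact hc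
  have hsome : ∀ h ∉ V, X' h = some (bk h) := by
    intro h hh
    obtain ⟨v, hv, -⟩ := hXv h hh
    have := hv Y.own
    rw [hY.wr_own] at this
    simp [bk, this]
  -- consensus on the shape
  obtain ⟨sh, hsh⟩ := consensus hY (fun h => (bk h).shape) V (fun h hh i => by
    have h1 := (hchi h hh).1 i
    simp only [hY.wr_own] at h1
    exact h1) (lt_of_le_of_lt hVn (by nlinarith))
  set W : Finset Om := univ.filter fun h => (bk h).shape ≠ sh with hW
  have hWn : (W.card : ℝ) ≤ V.card / c.cE := by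
    rw [le_div_iff₀ hcE]
    have h1 : c.cE * (W.card : ℝ) ≤ V.card := by rw [hW]; convert hsh
    linarith
  -- the bad set and its closure
  set B : Finset Om := Y.nbh (V ∪ W) with hB
  have hVB : V ∪ W ⊆ B := fun h hh => mem_nbh.2 ⟨Y.own, by rwa [hY.wr_own]⟩
  have hBn : (B.card : ℝ) ≤ K * (V.card + V.card / c.cE) := by
    have h1 : B.card ≤ K * (V.card + W.card) := (card_nbh _).trans (by
      gcongr; exact card_union_le _ _)
    have h2 : (B.card : ℝ) ≤ K * (V.card + W.card) := by exact_mod_cast h1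
    refine h2.trans ?_
    gcongr
  obtain ⟨cl, hBcl, hclC, hex⟩ := hY.exact B
  have hsm : Small c K (Fintype.card Om) B.card cl.card ρ :=
    small_of_kap (v := V.card) hn (by exact_mod_cast hK) le_rfl hVn (by positivity) hBn hclC
      (by positivity)
  -- a good site
  obtain ⟨h0, hh0⟩ : ∃ h0, h0 ∉ V ∪ W := by
    by_contra hc
    push Not at hc
    have h1 : Fintype.card Om ≤ V.card + W.card := by
      refine le_trans ?_ (card_union_le V W)
      rw [← card_univ]
      exact card_le_card fun h _ => hc h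
    have h2 : (Fintype.card Om : ℝ) ≤ V.card + V.card / c.cE := by
      have : (Fintype.card Om : ℝ) ≤ V.card + W.card := by exact_mod_cast h1
      linarith
    have h3 : (V.card : ℝ) + V.card / c.cE = (1 + 1 / c.cE) * V.card := by ring
    have h4 : (1 + 1 / c.cE) * (V.card : ℝ) ≤ (1 + 1 / c.cE) * (kap c K ρ * Fintype.card Om) := by
      gcongr
    have h5 : (1 + 1 / c.cE) * (kap c K ρ * Fintype.card Om) ≤
        (1 + 1 / c.cE) * (1 / (2 * (1 + 1 / c.cE)) * Fintype.card Om) := by gcongr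
    have h6 : (1 + 1 / c.cE) * (1 / (2 * (1 + 1 / c.cE)) * Fintype.card Om) =
        (Fintype.card Om : ℝ) / 2 := by
      have : (1 + 1 / c.cE) ≠ 0 := by positivity
      field_simp
    linarith
  rw [mem_union, not_or] at hh0
  have hshape0 : (bk h0).shape = sh := by
    by_contra hc
    exact hh0.2 (by rw [hW]; simpa using hc)
  have hlen0 : ∀ σ, ((bk h0).st σ).length = shLen sh σ := by
    intro σ
    rw [← hshape0]
    cases σ <;> simp [shLen, Blk.shape]
  have hc0 := hchi h0 hh0.1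
  have C : Ctx Y c bk B cl sh ρ := ⟨hBcl, hex, hsm, fun h hh => by
      by_contra hc
      exact hh (hVB (mem_union_right _ (by rw [hW]; simpa using hc))),
    fun h hh => hchi h fun hv => hh (hVB (mem_union_left _ hv)), fun σ => by
      have := hc0.2.1 σ
      simp only [hY.wr_own] at this
      rwa [hlen0 σ] at this⟩
  obtain ⟨σ, hσ⟩ : ∃ σ, shLen sh σ = Y.nb + Y.L := by
    obtain ⟨σ, hσ⟩ := hc0.2.2.1
    simp only [hY.wr_own] at hσ
    exact ⟨σ, by rw [← hlen0 σ, hσ]⟩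
  obtain ⟨w, hw1, hw2⟩ := C.conf hY hσ
  refine ⟨w, hw1, fr_le_of cl (fun h hh => ?_) hsm.ρ⟩
  by_contra hc
  exact hh (by
    rw [hsome h fun hv => hc (hBcl (hVB (mem_union_left _ hv))), hw2 h hc])

end Sys

end Vale.Agent.P330.H797
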