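import Vale.Agent.P330.H797.DynDefs

/-!
# Register systems: fractions, consensus, exactness of the stacks
-/

namespace Vale.Agent.P330.H797

open Finset Q

/-! ### Fractions -/

section fr
variable {Om : Type} [Fintype Om]

theorem fr_nonneg (P : Om → Prop) : 0 ≤ fr P := by
  unfold fr; positivity

theorem fr_mono {P Q : Om → Prop} (h : ∀ x, P x → Q x) : fr P ≤ fr Q := by
  classical
  unfold fr
  refine div_le_div_of_nonneg_right ?_ (Nat.cast_nonneg _)
  exact_mod_cast card_le_card fun x hx => by
    simp only [mem_filter, mem_univ, true_and] at hx ⊢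
    exact h x hx

theorem fr_congr {P Q : Om → Prop} (h : ∀ x, P x ↔ Q x) : fr P = fr Q :=
  congrArg fr (funext fun x => propext (h x))

theorem card_filter_eq (P : Om → Prop) [DecidablePred P] [Nonempty Om] :
    ((univ.filter P).card : ℝ) = fr P * Fintype.card Om := by
  classical
  unfold fr
  have : (Fintype.card Om : ℝ) ≠ 0 := by
    have := Fintype.card_pos (α := Om)
    positivity
  rw [div_mul_cancel₀ _ this]
  congr!

theorem fr_le_of {P : Om → Prop} [Nonempty Om] (A : Finset Om) {r : ℝ} (h : ∀ x, P x → x ∈ A)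
    (hA : (A.card : ℝ) ≤ r * Fintype.card Om) : fr P ≤ r := by
  classical
  unfold fr
  have h0 : (0 : ℝ) < Fintype.card Om := by exact_mod_cast Fintype.card_pos (α := Om)
  rw [div_le_iff₀ h0]
  refine le_trans ?_ hA
  exact_mod_cast card_le_card (fun x hx => h x (by simpa using hx))

theorem fr_eq_one {P : Om → Prop} [Nonempty Om] (h : ∀ x, P x) : fr P = 1 := by
  classical
  unfold fr
  rw [filter_true_of_mem (fun x _ => h x), card_univ, div_self]
  have := Fintype.card_pos (α := Om)
  positivity

/-- A property that fails at less than all sites holds somewhere. -/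
theorem exists_of_fr_lt {P : Om → Prop} [Nonempty Om] (h : fr P < 1) : ∃ x, ¬ P x := by
  classical
  by_contra hc
  push Not at hc
  have : fr P = 1 := by
    unfold fr
    rw [filter_true_of_mem (fun x _ => hc x), card_univ, div_self]
    have := Fintype.card_pos (α := Om)
    positivity
  linarith

end fr

namespace Sys

variable {Om S X : Type} {K : ℕ} {Y : Sys Om S X K} {c : Cst}

/-! ### Stacks -/

@[simp] theorem stk_length (x : X) (n : ℕ) (h : Om) : (Y.stk x n h).length = n := by
  simp [stk]

theorem stk_getElem? (x : X) {n j : ℕ} (hj : j < n) (h : Om) :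
    (Y.stk x n h)[j]? = some (Y.row x j h) := by
  simp [stk, hj]

theorem stk_getD (x : X) {n j : ℕ} (hj : j < n) (h : Om) (d : S) :
    (Y.stk x n h).getD j d = Y.row x j h := by
  rw [List.getD_eq_getElem?_getD, stk_getElem? x hj]; rfl

theorem stk_take (x : X) {n m : ℕ} (hm : m ≤ n) (h : Om) :
    (Y.stk x n h).take m = Y.stk x m h := by
  unfold stk
  rw [← List.map_take, List.take_range, min_eq_left hm]

theorem eq_stk {x : X} {l : List S} {n : ℕ} {h : Om} (hl : l.length = n)
    (he : ∀ j < n, l.getD j Y.s0 = Y.row x j h) : l = Y.stk x n h := by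
  apply List.ext_getElem (by simp [hl])
  intro j h1 h2
  have h3 := he j (by simpa using h2)
  rw [List.getD_eq_getElem?_getD, List.getElem?_eq_getElem h1, Option.getD_some] at h3
  rw [h3]
  simp [stk]

theorem take_eq_stk {x : X} {l : List S} {n : ℕ} {h : Om} (hl : n ≤ l.length)
    (he : ∀ j < n, l.getD j Y.s0 = Y.row x j h) : l.take n = Y.stk x n h := by
  refine eq_stk (by simp [hl]) fun j hj => ?_
  rw [← he j hj, List.getD_eq_getElem?_getD, List.getD_eq_getElem?_getD, List.getElem?_take_of_lt hj]

/-! ### Consensus -/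

variable [Fintype Om]

open Classical in
theorem consensus [Nonempty Om] (hY : RFacts Y c) {T : Type} (f : Om → T) (B : Finset Om)
    (hB : ∀ h ∉ B, ∀ i, f (Y.wr i h) = f h) (hlt : (B.card : ℝ) < c.cE * Fintype.card Om) :
    ∃ t, c.cE * ((univ.filter fun h => f h ≠ t).card : ℝ) ≤ B.card := by
  by_cases hmaj : ∃ t, Fintype.card Om < 2 * (univ.filter fun h => f h = t).card
  · obtain ⟨t, ht⟩ := hmaj
    refine ⟨t, ?_⟩
    have h1 : 2 * (univ.filter fun h => f h ≠ t).card ≤ Fintype.card Om := by
      have h2 := card_filter_add_card_filter_not (s := (univ : Finset Om)) (fun h => f h = t)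
      rw [card_univ] at h2
      have h3 : (univ.filter fun h => f h ≠ t).card = (univ.filter fun h => ¬ f h = t).card := by
        congr 1
      omega
    obtain ⟨A', hA', hc⟩ := hY.expand _ h1
    refine hc.trans ?_
    have : A' ⊆ B := by
      intro h hh
      obtain ⟨h2, i, hi⟩ := hA' h hh
      simp only [mem_filter, mem_univ, true_and, not_not] at h2 hi
      by_contra hb
      exact h2 (by rw [← hB h hb i, hi])
    exact_mod_cast card_le_card this
  · push Not at hmaj
    exfalso
    have hA : ∀ t, ∃ A' : Finset Om, (∀ h ∈ A', f h = t ∧ h ∈ B) ∧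
        c.cE * ((univ.filter fun h => f h = t).card : ℝ) ≤ A'.card := by
      intro t
      obtain ⟨A', hA', hc⟩ := hY.expand _ (hmaj t)
      refine ⟨A', fun h hh => ?_, hc⟩
      obtain ⟨h2, i, hi⟩ := hA' h hh
      simp only [mem_filter, mem_univ, true_and] at h2 hi
      refine ⟨h2, ?_⟩
      by_contra hb
      exact hi (by rw [hB h hb i, h2])
    choose A' hA' hc using hA
    have h1 : (Fintype.card Om : ℝ) = ∑ t ∈ univ.image f, ((univ.filter fun h => f h = t).card : ℝ) := by
      have := card_eq_sum_card_image f (univ : Finset Om)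
      rw [card_univ] at this
      exact_mod_cast this
    have h2 : ∑ t ∈ univ.image f, ((A' t).card : ℝ) ≤ B.card := by
      have h3 : ∀ t, A' t ⊆ B.filter fun h => f h = t := fun t h hh =>
        mem_filter.2 ⟨(hA' t h hh).2, (hA' t h hh).1⟩
      have h4 : ∑ t ∈ univ.image f, (A' t).card ≤ ∑ t ∈ univ.image f, (B.filter fun h => f h = t).card :=
        sum_le_sum fun t _ => card_le_card (h3 t)
      have h5 : ∑ t ∈ univ.image f, (B.filter fun h => f h = t).card = B.card :=
        (card_eq_sum_card_fiberwise (f := f) (s := B) (t := univ.image f)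
          (fun h _ => by simp)).symm
      exact_mod_cast h4.trans h5.le
    have h6 : c.cE * (Fintype.card Om : ℝ) ≤ B.card := by
      rw [h1, mul_sum]
      exact (sum_le_sum fun t _ => hc t).trans h2
    linarith

/-! ### Neighbours -/

open Classical in
/-- The sites with a neighbour in `A`. -/
noncomputable def nbh (Y : Sys Om S X K) (A : Finset Om) : Finset Om :=
  univ.biUnion fun i : Fin K => A.image (Y.wr i).symm

omit [Fintype Om] in
theorem mem_nbh {A : Finset Om} {h : Om} : h ∈ Y.nbh A ↔ ∃ i, Y.wr i h ∈ A := by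
  classical
  simp only [nbh, mem_biUnion, mem_univ, true_and, mem_image]
  constructor
  · rintro ⟨i, a, ha, rfl⟩; exact ⟨i, by simpa using ha⟩
  · rintro ⟨i, hi⟩; exact ⟨i, _, hi, by simp⟩

omit [Fintype Om] in
theorem card_nbh (A : Finset Om) : (Y.nbh A).card ≤ K * A.card := by
  classical
  refine card_biUnion_le.trans ?_
  refine (sum_le_sum fun i _ => card_image_le).trans ?_
  simp

/-! ### Exactness of the stacks -/

open Classical in
/-- If the local checks and the links hold outside `B` and the base rows are those of `x` up to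
`ρ₀`, then the stack is that of `x` outside the closure of `B`. -/
theorem exact_stk [Nonempty Om] {B cl : Finset Om} (hBcl : B ⊆ cl)
    (hex : ∀ j < Y.nb + Y.L, ∀ (x : X) (u : Om → S),
      (∀ h ∉ B, Y.chk j h (fun i => u (Y.wr i h))) →
      fr (fun h => u h ≠ Y.row x j h) ≤ c.ρ₀ → ∀ h ∉ cl, u h = Y.row x j h)
    (hlr : ∀ (x : X) j h, j < Y.L →
      Y.row x (Y.nb + j) h = Y.link j h (fun i => Y.stk x (Y.nb + j) (Y.wr i h)))
    {st : Om → List S} {len : ℕ} (hL : len ≤ Y.nb + Y.L) {x : X}
    (hlen : ∀ h ∉ B, (st h).length = len)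
    (hchk : ∀ h ∉ B, ∀ j < len, Y.chk j h (fun i => (st (Y.wr i h)).getD j Y.s0))
    (hlink : ∀ h ∉ B, ∀ j, Y.nb + j < len →
      (st h).getD (Y.nb + j) Y.s0 = Y.link j h (fun i => (st (Y.wr i h)).take (Y.nb + j)))
    (hbase : fr (fun h => (st h).take Y.nb ≠ Y.stk x Y.nb h) ≤ c.ρ₀)
    (hcl : (B.card : ℝ) + K * cl.card ≤ c.ρ₀ * Fintype.card Om) :
    ∀ h ∉ cl, st h = Y.stk x len h := by
  have key : ∀ j, j < len → ∀ h ∉ cl, (st h).getD j Y.s0 = Y.row x j h := by
    intro j
    induction j using Nat.strong_induction_on with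
    | _ j ih =>
      intro hj
      refine hex j (by omega) x (fun h => (st h).getD j Y.s0) (fun h hh => hchk h hh j hj) ?_
      rcases lt_or_ge j Y.nb with hjn | hjn
      · refine (fr_mono fun h hh => ?_).trans hbase
        intro he
        apply hh
        rw [← stk_getD x hjn h Y.s0, ← he, List.getD_eq_getElem?_getD, List.getD_eq_getElem?_getD,
          List.getElem?_take_of_lt hjn]
      · obtain ⟨j', rfl⟩ : ∃ j', j = Y.nb + j' := ⟨j - Y.nb, by omega⟩
        refine fr_le_of (B ∪ Y.nbh cl) (fun h hh => ?_) ?_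
        · by_contra hc
          rw [mem_union, not_or, mem_nbh] at hc
          obtain ⟨hc1, hc2⟩ := hc
          push Not at hc2
          apply hh
          rw [hlink h hc1 j' hj, hlr x j' h (by omega)]
          congr 1
          funext i
          have hwi := hc2 i
          refine take_eq_stk ?_ fun j'' hj'' => ih j'' hj'' (by omega) _ hwi
          rw [hlen _ fun hb => hwi (hBcl hb)]
          omega
        · refine le_trans ?_ hcl
          have h1 : (B ∪ Y.nbh cl).card ≤ B.card + K * cl.card :=
            (card_union_le _ _).trans (Nat.add_le_add_left (card_nbh cl) _)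
          exact_mod_cast h1
  intro h hh
  exact eq_stk (hlen h fun hb => hh (hBcl hb)) fun j hj => key j hj h hh

end Sys

end Vale.Agent.P330.H797
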